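import Mathlib

/-!
# P261: finitely generated `ℤ_p`-modules among derived `p`-complete groups

`ExtC p A` : `A` is derived (Ext-) `p`-complete, i.e. `Hom(ℤ[1/p], A) = Ext(ℤ[1/p], A) = 0`, in
elementary form. Such a group has exactly one structure of a `ℤ_p`-module, and this module is
finitely generated as soon as `A / pA` is finite.
-/

namespace Vale.Agent.P261.H589

open Function

/-- `A` is derived `p`-complete: for every sequence `a` in `A` there is exactly one sequence `b`
with `b n = a n + (p : ℤ) • b (n + 1)`. -/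
def ExtC (p : ℕ) (A : Type*) [AddCommGroup A] : Prop :=
  ∀ a : ℕ → A, ∃! b : ℕ → A, ∀ n, b n = a n + (p : ℤ) • b (n + 1)

/-- `A` is (the underlying group of) a finitely generated `ℤ_p`-module. -/
def FG (p : ℕ) [Fact p.Prime] (A : Type*) [AddCommGroup A] : Prop :=
  ∃ _ : Module ℤ_[p] A, Module.Finite ℤ_[p] A

/-- `A / pA` is finite. -/
def Cok (p : ℕ) (A : Type*) [AddCommGroup A] : Prop :=
  Finite (A ⧸ (zsmulAddGroupHom (p : ℤ) : A →+ A).range)

/-- `A[p]` is finite. -/
def Ker (p : ℕ) (A : Type*) [AddCommGroup A] : Prop :=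
  Finite {a : A // (p : ℤ) • a = 0}

section
variable {p : ℕ} [Fact p.Prime] {A : Type*} [AddCommGroup A]

omit [Fact p.Prime] in
/-- uniqueness in `ExtC` at the index `0` -/
theorem ExtC.uniq (h : ExtC p A) {a b c : ℕ → A} (hb : ∀ n, b n = a n + (p : ℤ) • b (n + 1))
    (hc : ∀ n, c n = a n + (p : ℤ) • c (n + 1)) (n : ℕ) : b n = c n :=
  congrFun ((h a).unique hb hc) n

omit [Fact p.Prime] in
theorem ExtC.zero (h : ExtC p A) {b : ℕ → A} (hb : ∀ n, b n = (p : ℤ) • b (n + 1)) (n : ℕ) : b n = 0 :=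
  h.uniq (a := fun _ => 0) (b := b) (c := fun _ => 0) (fun n => by simpa using hb n)
    (fun n => by simp) n

/-- one digit -/
theorem digit (z : ℤ_[p]) : ∃ (d : ℤ) (w : ℤ_[p]), z = d + p * w := by
  have h := (PadicInt.zmodRepr_spec z).2
  rw [PadicInt.maximalIdeal_eq_span_p, Ideal.mem_span_singleton] at h
  obtain ⟨w, hw⟩ := h
  refine ⟨(PadicInt.zmodRepr z : ℤ), w, ?_⟩
  rw [← hw]; push_cast; ring

/-- digits of `z` -/
theorem digits (z : ℤ_[p]) : ∃ (d : ℕ → ℤ) (w : ℕ → ℤ_[p]), w 0 = z ∧
    ∀ n, w n = d n + p * w (n + 1) := by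
  choose d w hd using (digit : ∀ z : ℤ_[p], _)
  refine ⟨fun n => d (w^[n] z), fun n => w^[n] z, rfl, fun n => ?_⟩
  beta_reduce
  rw [Function.iterate_succ_apply']
  exact hd _

/-- `x = z • a`, elementary form -/
def Rel (p : ℕ) [Fact p.Prime] {A : Type*} [AddCommGroup A] (a : A) (z : ℤ_[p]) (x : A) : Prop :=
  ∃ (d : ℕ → ℤ) (w : ℕ → ℤ_[p]) (b : ℕ → A), w 0 = z ∧ b 0 = x ∧
    (∀ n, w n = d n + p * w (n + 1)) ∧ ∀ n, b n = d n • a + (p : ℤ) • b (n + 1)

theorem Rel.total (h : ExtC p A) (a : A) (z : ℤ_[p]) : ∃ x, Rel p a z x := by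
  obtain ⟨d, w, hw, hd⟩ := digits z
  obtain ⟨b, hb, -⟩ := h (fun n => d n • a)
  exact ⟨b 0, d, w, b, hw, rfl, hd, hb⟩

theorem Rel.add {a : A} {z z' : ℤ_[p]} {x x' : A} (h : Rel p a z x) (h' : Rel p a z' x') :
    Rel p a (z + z') (x + x') := by
  obtain ⟨d, w, b, h0, h1, h2, h3⟩ := h
  obtain ⟨d', w', b', h0', h1', h2', h3'⟩ := h'
  refine ⟨fun n => d n + d' n, fun n => w n + w' n, fun n => b n + b' n, by simp [h0, h0'],
    by simp [h1, h1'], fun n => ?_, fun n => ?_⟩
  · beta_reduce; rw [h2 n, h2' n]; push_cast; ring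
  · beta_reduce; rw [h3 n, h3' n, add_smul, smul_add]; abel

theorem Rel.neg {a : A} {z : ℤ_[p]} {x : A} (h : Rel p a z x) : Rel p a (-z) (-x) := by
  obtain ⟨d, w, b, h0, h1, h2, h3⟩ := h
  refine ⟨fun n => - d n, fun n => - w n, fun n => - b n, by simp [h0],
    by simp [h1], fun n => ?_, fun n => ?_⟩
  · beta_reduce; rw [h2 n]; push_cast; ring
  · beta_reduce; rw [h3 n, neg_smul, smul_neg]; abel

theorem Rel.one (a : A) : Rel p a 1 a := by
  refine ⟨fun n => if n = 0 then 1 else 0, fun n => if n = 0 then 1 else 0,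
    fun n => if n = 0 then a else 0, by simp, by simp, fun n => ?_, fun n => ?_⟩
  · rcases Nat.eq_zero_or_pos n with rfl | hn
    · simp
    · simp [hn.ne']
  · rcases Nat.eq_zero_or_pos n with rfl | hn
    · simp
    · simp [hn.ne']

theorem int_of_mul {w : ℤ_[p]} {e : ℤ} (h : (p : ℤ_[p]) * w = e) : ∃ f : ℤ, w = f := by
  have hd : (p : ℤ) ∣ e := by
    have h1 : (p : ℤ_[p]) ∣ (e : ℤ_[p]) := ⟨w, h.symm⟩
    have h2 : ‖(e : ℤ_[p])‖ < 1 := by
      rw [← h, norm_mul, PadicInt.norm_p]
      have hp : (1 : ℝ) < p := by exact_mod_cast (Fact.out : p.Prime).one_lt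
      have : (p : ℝ)⁻¹ < 1 := inv_lt_one_of_one_lt₀ hp
      nlinarith [PadicInt.norm_le_one w, norm_nonneg w, inv_nonneg.2 (le_of_lt (lt_trans one_pos hp))]
    exact (PadicInt.norm_int_lt_one_iff_dvd e).1 h2
  obtain ⟨f, rfl⟩ := hd
  refine ⟨f, ?_⟩
  have hp : (p : ℤ_[p]) ≠ 0 := by exact_mod_cast (Fact.out : p.Prime).ne_zero
  apply mul_left_cancel₀ hp
  rw [h]; push_cast; ring

theorem Rel.zero_eq (h : ExtC p A) {a x : A} (hr : Rel p a 0 x) : x = 0 := by
  obtain ⟨d, w, b, h0, h1, h2, h3⟩ := hr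
  have hint : ∀ n, ∃ e : ℤ, w n = e := by
    intro n
    induction n with
    | zero => exact ⟨0, by simpa using h0⟩
    | succ n ih =>
      obtain ⟨e, he⟩ := ih
      refine int_of_mul (e := e - d n) ?_
      have := h2 n
      rw [he] at this
      push_cast; rw [this]; ring
  choose e he using hint
  have he0 : e 0 = 0 := by
    have := he 0; rw [h0] at this; exact_mod_cast this.symm
  have hrec : ∀ n, e n = d n + p * e (n + 1) := by
    intro n
    have := h2 n
    rw [he n, he (n + 1)] at this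
    exact_mod_cast this
  have := h.uniq (a := fun n => d n • a) h3 (c := fun n => e n • a) (fun n => by
    rw [hrec n, add_smul, mul_smul]) 0
  rw [h1] at this
  simpa [he0] using this

theorem Rel.unique (h : ExtC p A) {a : A} {z : ℤ_[p]} {x y : A} (hx : Rel p a z x)
    (hy : Rel p a z y) : x = y := by
  have := (hx.add hy.neg)
  rw [add_neg_cancel] at this
  have := this.zero_eq h
  exact sub_eq_zero.1 (by rw [sub_eq_add_neg]; exact this)

/-- the additive map `ℤ_p → A`, `1 ↦ a` -/
noncomputable def zmap (h : ExtC p A) (a : A) : ℤ_[p] →+ A where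
  toFun z := (Rel.total h a z).choose
  map_zero' := (Rel.total h a 0).choose_spec.zero_eq h
  map_add' z z' := Rel.unique h (Rel.total h a (z + z')).choose_spec
    ((Rel.total h a z).choose_spec.add (Rel.total h a z').choose_spec)

theorem zmap_one (h : ExtC p A) (a : A) : zmap h a 1 = a :=
  Rel.unique h (Rel.total h a 1).choose_spec (Rel.one a)

/-- additive maps `ℤ_p → A` are determined by the image of `1` -/
theorem ExtC.hom_ext (h : ExtC p A) {f g : ℤ_[p] →+ A} (hfg : f 1 = g 1) : f = g := by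
  ext z
  obtain ⟨d, w, hw, hd⟩ := digits z
  have key : ∀ F : ℤ_[p] →+ A, ∀ n, F (w n) = d n • F 1 + (p : ℤ) • F (w (n + 1)) := by
    intro F n
    conv_lhs => rw [hd n]
    rw [map_add]
    congr 1
    · rw [← map_zsmul]; congr 1; simp
    · rw [← map_zsmul]; congr 1
  have := h.uniq (a := fun n => d n • f 1) (b := fun n => f (w n)) (c := fun n => g (w n))
    (key f) (fun n => by rw [hfg]; exact key g n) 0
  simpa [hw] using this

/-- the `ℤ_p`-module structure of a derived `p`-complete group -/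
@[reducible] noncomputable def ExtC.module (h : ExtC p A) : Module ℤ_[p] A where
  smul z a := zmap h a z
  one_smul a := zmap_one h a
  mul_smul z z' a := by
    have : (zmap h a).comp (AddMonoidHom.mulRight z') = zmap h (zmap h a z') :=
      h.hom_ext (by simp [zmap_one])
    exact congrArg (fun F : ℤ_[p] →+ A => F z) this
  smul_zero z := by
    have : zmap h (0 : A) = 0 := h.hom_ext (by simp [zmap_one])
    exact congrArg (fun F : ℤ_[p] →+ A => F z) this
  smul_add z a b := by
    have : zmap h (a + b) = zmap h a + zmap h b := h.hom_ext (by simp [zmap_one])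
    exact congrArg (fun F : ℤ_[p] →+ A => F z) this
  add_smul z z' a := map_add (zmap h a) z z'
  zero_smul a := map_zero (zmap h a)

/-- the structure of a `ℤ_p`-module on a derived `p`-complete group is unique -/
theorem ExtC.module_unique (h : ExtC p A) (m m' : Module ℤ_[p] A) : m = m' := by
  refine Module.ext' m m' fun z a => ?_
  have : (((@AddMonoidHom.mk' ℤ_[p] A _ _ (fun z => m.smul z a) (fun z z' => m.add_smul z z' a)) :
      ℤ_[p] →+ A)) = AddMonoidHom.mk' (fun z => m'.smul z a) (fun z z' => m'.add_smul z z' a) :=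
    h.hom_ext ((m.one_smul a).trans (m'.one_smul a).symm)
  exact congrArg (fun F : ℤ_[p] →+ A => F z) this

/-- `ℤ_p` itself: solutions of `w n = c n + p w (n + 1)` exist. -/
theorem zp_series (c : ℕ → ℤ_[p]) : ∃ w : ℕ → ℤ_[p], ∀ n, w n = c n + p * w (n + 1) := by
  have hs : ∀ n, Summable fun m => (p : ℤ_[p]) ^ m * c (n + m) := by
    intro n
    refine Summable.of_norm_bounded (g := fun m => ((p : ℝ)⁻¹) ^ m) ?_ fun m => ?_
    · refine summable_geometric_of_lt_one (by positivity) ?_
      exact inv_lt_one_of_one_lt₀ (by exact_mod_cast (Fact.out : p.Prime).one_lt)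
    · rw [norm_mul, norm_pow, PadicInt.norm_p]
      exact mul_le_of_le_one_right (by positivity) (PadicInt.norm_le_one _)
  refine ⟨fun n => ∑' m, (p : ℤ_[p]) ^ m * c (n + m), fun n => ?_⟩
  beta_reduce
  rw [(hs n).tsum_eq_zero_add, ← (hs (n + 1)).tsum_mul_left]
  simp only [pow_zero, one_mul, add_zero]
  congr 1
  refine tsum_congr fun m => ?_
  rw [pow_succ, show n + 1 + m = n + (m + 1) by ring]; ring

/-- (D1) a derived `p`-complete group with finite `A / pA` is a finitely generated `ℤ_p`-module -/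
theorem fg_of_extC (h : ExtC p A) (hc : Cok p A) : FG p A := by
  have hf : Finite (A ⧸ (zsmulAddGroupHom (p : ℤ) : A →+ A).range) := hc
  let _ := h.module
  refine ⟨h.module, ?_⟩
  have := Fintype.ofFinite (A ⧸ (zsmulAddGroupHom (p : ℤ) : A →+ A).range)
  set Q := A ⧸ (zsmulAddGroupHom (p : ℤ) : A →+ A).range with hQ
  classical
  let s : Q → A := fun q => q.out
  have hs : ∀ a : A, ∃ a' : A, a = s (QuotientAddGroup.mk a) + (p : ℤ) • a' := by
    intro a
    have : (QuotientAddGroup.mk (s (QuotientAddGroup.mk a)) : Q) = QuotientAddGroup.mk a :=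
      Quotient.out_eq' _
    rw [QuotientAddGroup.eq] at this
    obtain ⟨a', ha'⟩ := this
    refine ⟨a', ?_⟩
    have : (p : ℤ) • a' = -s (QuotientAddGroup.mk a) + a := ha'
    rw [this]; abel
  choose nx hnx using hs
  refine Module.Finite.of_surjective (Fintype.linearCombination ℤ_[p] s) fun a => ?_
  let u : ℕ → A := fun n => nx^[n] a
  let i : ℕ → Q := fun n => QuotientAddGroup.mk (u n)
  have hu : ∀ n, u n = s (i n) + (p : ℤ) • u (n + 1) := by
    intro n
    have := hnx (u n)
    simp only [u, i] at this ⊢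
    rw [Function.iterate_succ_apply']
    exact this
  choose w hw using fun q : Q => zp_series (p := p) (fun n => if i n = q then 1 else 0)
  refine ⟨fun q => w q 0, ?_⟩
  have hv : ∀ n, (∑ q, w q n • s q) = s (i n) + (p : ℤ) • (∑ q, w q (n + 1) • s q) := by
    intro n
    have : ∀ q, w q n • s q = (if i n = q then s q else 0) + (p : ℤ) • (w q (n + 1) • s q) := by
      intro q
      rw [hw q n, add_smul, mul_smul]
      congr 1
      · split_ifs <;> simp
      · simp [Nat.cast_smul_eq_nsmul]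
    rw [Finset.sum_congr rfl fun q _ => this q, Finset.sum_add_distrib, Finset.smul_sum]
    congr 1
    exact Fintype.sum_ite_eq (i n) s
  have := h.uniq (a := fun n => s (i n)) hv hu 0
  rw [Fintype.linearCombination_apply]
  exact this

/-- a module over `ℤ_p` which is finitely generated and killed by `p` is finite -/
theorem finite_of_killed {M : Type*} [AddCommGroup M] [Module ℤ_[p] M] [Module.Finite ℤ_[p] M]
    (hM : ∀ x : M, (p : ℤ) • x = 0) : Finite M := by
  obtain ⟨n, s, hs⟩ := Module.Finite.exists_fin (R := ℤ_[p]) (M := M)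
  have hsur : Surjective (fun c : Fin n → Fin p => ∑ j, ((c j : ℕ) : ℤ_[p]) • s j) := by
    intro x
    have hx : x ∈ Submodule.span ℤ_[p] (Set.range s) := by rw [hs]; trivial
    obtain ⟨c, rfl⟩ := (Submodule.mem_span_range_iff_exists_fun ℤ_[p]).1 hx
    refine ⟨fun j => ⟨PadicInt.zmodRepr (c j), PadicInt.zmodRepr_lt_p (c j)⟩, ?_⟩
    refine Finset.sum_congr rfl fun j _ => ?_
    have h := (PadicInt.zmodRepr_spec (c j)).2
    rw [PadicInt.maximalIdeal_eq_span_p, Ideal.mem_span_singleton] at h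
    obtain ⟨w, hw⟩ := h
    have h1 : c j = (PadicInt.zmodRepr (c j) : ℤ_[p]) + p * w := by rw [← hw]; ring
    conv_rhs => rw [h1]
    rw [add_smul, mul_smul]
    have : (p : ℤ_[p]) • (w • s j) = 0 := by
      rw [Nat.cast_smul_eq_nsmul]; simpa using hM (w • s j)
    rw [this, add_zero]
  exact Finite.of_surjective _ hsur

/-- (D2) for a finitely generated `ℤ_p`-module `A / pA` is finite -/
theorem cok_of_fg (h : FG p A) : Cok p A := by
  obtain ⟨m, hm⟩ := h
  let f : A →ₗ[ℤ_[p]] A := LinearMap.lsmul ℤ_[p] A (p : ℤ_[p])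
  have hfx : ∀ x, f x = (p : ℤ) • x := fun x => by simp [f, Nat.cast_smul_eq_nsmul]
  have : Finite (A ⧸ LinearMap.range f) := by
    refine finite_of_killed (p := p) fun x => ?_
    induction x using Submodule.Quotient.induction_on with
    | H x =>
      have h1 : (p : ℤ) • (Submodule.Quotient.mk x : A ⧸ LinearMap.range f) =
          Submodule.Quotient.mk ((p : ℤ) • x) := rfl
      rw [h1, Submodule.Quotient.mk_eq_zero]
      exact ⟨x, hfx x⟩
  let g : A ⧸ (zsmulAddGroupHom (p : ℤ) : A →+ A).range → A ⧸ LinearMap.range f :=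
    fun q => Submodule.Quotient.mk q.out
  refine Finite.of_injective g fun x y hxy => ?_
  have h2 := (Submodule.Quotient.eq _).1 hxy
  obtain ⟨z, hz⟩ := h2
  rw [← Quotient.out_eq' x, ← Quotient.out_eq' y]
  refine QuotientAddGroup.eq.2 ?_
  refine ⟨-z, ?_⟩
  have h3 : (p : ℤ) • z = x.out - y.out := by rw [← hfx]; exact hz
  change (p : ℤ) • (-z) = -x.out + y.out
  rw [smul_neg, h3]; abel

/-- (D2) for a finitely generated `ℤ_p`-module `A[p]` is finite -/
theorem ker_of_fg (h : FG p A) : Ker p A := by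
  obtain ⟨m, hm⟩ := h
  let f : A →ₗ[ℤ_[p]] A := LinearMap.lsmul ℤ_[p] A (p : ℤ_[p])
  have hfx : ∀ x, f x = (p : ℤ) • x := fun x => by simp [f, Nat.cast_smul_eq_nsmul]
  have : Finite (LinearMap.ker f) := by
    have : Module.Finite ℤ_[p] (LinearMap.ker f) := inferInstance
    refine finite_of_killed (p := p) fun x => ?_
    ext
    have := x.2
    rw [LinearMap.mem_ker, hfx] at this
    simpa using this
  refine Finite.of_injective (β := LinearMap.ker f)
    (fun x => ⟨x.1, by rw [LinearMap.mem_ker, hfx]; exact x.2⟩) fun x y hxy => ?_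
  have := congrArg Subtype.val hxy
  exact Subtype.ext this

end

end Vale.Agent.P261.H589
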